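import Vale.Agent.P281.H969.TG.Spec
import Vale.Agent.P281.H64.Gen.Core
import Vale.Agent.P281.H383.Gen.Ext

/-! P281, project T-G, block G4 (helper176): the number of sheets of `u` is bounded over the
complement of `f⁻¹(S)` and of the support of `Δ`. -/

open Set Filter Metric Vale.Agent.P281 Vale.Agent.P281.H713 Vale.Agent.P272.K
open Vale.Agent.P281.MF Vale.Agent.P281.ISO
open Vale.Agent.P281.H64.Thin Vale.Agent.P281.H64.Gen
open scoped Topology ContDiff Manifold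

noncomputable section

namespace Vale.Agent.P281.H176.TG

open Vale.Agent.P281.H969.TG

/-- The number of points of the fibres is locally constant, where all points are étale. -/
theorem eventually_encard (hG3 : SheetStmt) {n : ℕ} {X₁ X : Type} [TopologicalSpace X₁]
    [T2Space X₁] [CompactSpace X₁] [ChartedSpace (Cm n) X₁] [IsManifold 𝓘(ℂ, Cm n) ω X₁]
    [TopologicalSpace X] [T2Space X] [ChartedSpace (Cm n) X] [IsManifold 𝓘(ℂ, Cm n) ω X]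
    {u : X₁ → X} (hu : ContMDiff 𝓘(ℂ, Cm n) 𝓘(ℂ, Cm n) ω u) {x : X}
    (hx : ∀ x₁, u x₁ = x → Function.Injective (mfderiv 𝓘(ℂ, Cm n) 𝓘(ℂ, Cm n) u x₁)) :
    ∃ m : ℕ, ∀ᶠ z in 𝓝 x, (u ⁻¹' {z}).encard = m := by
  obtain ⟨m, s, V, hVo, hxV, h1, h2, h3⟩ := hG3 n X₁ X u hu x hx
  refine ⟨m, ?_⟩
  filter_upwards [hVo.mem_nhds hxV] with z hz
  have h4 : u ⁻¹' {z} = range fun j => s j z := by
    ext x₁
    constructor
    · intro h
      exact (h3 z hz x₁ h).1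
    · rintro ⟨j, rfl⟩
      exact (h1 j z hz).2
  rw [h4, ← image_univ, (h2 z hz).encard_image, encard_univ]
  simp

/-- **G4** -/
theorem cardStmt (hG3 : SheetStmt) : CardStmt := by
  intro n p X₁ X Y _ _ _ _ _ _ _ _ _ _ _ _ _ _ _ u f S Δ hu hf hfs hS hsub hsnc het
  have hs := JB.snc hsnc
  have hfh : ∀ x, HolM (Cm n) (Cm p) f x := fun x => hf x
  -- a point where `f` is submersive
  haveI : Nonempty Y := ⟨f (Classical.arbitrary X)⟩
  obtain ⟨y₀, hy₀⟩ := (IsSmallSet.dense_compl hS).nonempty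
  obtain ⟨x₀, rfl⟩ := hfs y₀
  have hthin : IsSmallSet (Cm n) (f ⁻¹' S) :=
    ⟨hS.1.preimage hf.continuous, preimage_cov hfh ⟨x₀, hsub x₀ hy₀⟩ hS.cov⟩
  have hthin' : IsSmallSet (Cm n) (⋃₀ {D | Δ D ≠ 0}) :=
    IsSmallSet.of_thin (isThinSet_sUnion hs.finite fun D hD => hs.prime D hD)
  obtain ⟨-, hconn⟩ := H383.Gen.compl n X _ (hthin.union hthin')
  have hmem : ∀ x, x ∈ (f ⁻¹' S ∪ ⋃₀ {D | Δ D ≠ 0})ᶜ ↔ f x ∉ S ∧ ∀ D, Δ D ≠ 0 → x ∉ D := by
    intro x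
    constructor
    · intro h
      exact ⟨fun h' => h (Or.inl h'), fun D hD hxD => h (Or.inr ⟨D, hD, hxD⟩)⟩
    · rintro ⟨h1, h2⟩ (h | ⟨D, hD, hxD⟩)
      · exact h1 h
      · exact h2 D hD hxD
  have hloc : ∀ x ∈ (f ⁻¹' S ∪ ⋃₀ {D | Δ D ≠ 0})ᶜ, ∃ m : ℕ,
      ∀ᶠ z in 𝓝 x, (u ⁻¹' {z}).encard = m := by
    intro x hx
    obtain ⟨h1, h2⟩ := (hmem x).1 hx
    refine eventually_encard hG3 hu fun x₁ hx₁ => het x₁ ?_ ?_
    · rw [hx₁]
      exact h1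
    · intro D hD
      rw [hx₁]
      exact h2 D hD
  have hcont : ContinuousOn (fun x => (u ⁻¹' {x}).ncard) (f ⁻¹' S ∪ ⋃₀ {D | Δ D ≠ 0})ᶜ := by
    intro x hx
    obtain ⟨m, hm⟩ := hloc x hx
    refine ContinuousAt.continuousWithinAt ?_
    have h1 : (fun x => (u ⁻¹' {x}).ncard) =ᶠ[𝓝 x] fun _ => m := by
      filter_upwards [hm] with z hz
      rw [ncard, hz]
      simp
    exact continuousAt_const.congr h1.symm
  rcases (f ⁻¹' S ∪ ⋃₀ {D | Δ D ≠ 0})ᶜ.eq_empty_or_nonempty with h0 | ⟨x', hx'⟩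
  · refine ⟨0, fun x h1 h2 => ?_⟩
    have h3 := (hmem x).2 ⟨h1, h2⟩
    rw [h0] at h3
    exact h3.elim
  · refine ⟨(u ⁻¹' {x'}).ncard, fun x h1 h2 => ?_⟩
    have h3 := (hmem x).2 ⟨h1, h2⟩
    have h4 : (u ⁻¹' {x}).ncard = (u ⁻¹' {x'}).ncard := hconn.constant hcont h3 hx'
    obtain ⟨m, hm⟩ := hloc x h3
    have h5 : (u ⁻¹' {x}).encard = m := hm.self_of_nhds
    have h6 : (u ⁻¹' {x}).ncard = m := by
      rw [ncard, h5]
      simp
    rw [h5, ← h4, h6]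

end Vale.Agent.P281.H176.TG
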